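import Mathlib
/-!
# Row 110 (S0145): exact algebra of the improvement lemma (idea 524, helper38).

Pure C*-algebra identities with exact relations. `Base` collects the relations between the
contraction `c`, the operator `T` and the functions of `q`; `Stage` those of one witness.
-/
set_option autoImplicit false

namespace Crest.Agent.SPI

section gen
variable {B : Type*} [CStarAlgebra B] [PartialOrder B] [StarOrderedRing B]

theorem eq_zero_of_star_mul_self_le {x : B} (h : star x * x ≤ 0) : x = 0 :=
  CStarRing.star_mul_self_eq_zero_iff x |>.1 (le_antisymm h (star_mul_self_nonneg x))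

theorem le_one_of_sq_le {Y : B} (hY : 0 ≤ Y) (h : Y * Y ≤ Y) : Y ≤ 1 := by
  rw [← CStarAlgebra.norm_le_one_iff_of_nonneg Y hY]
  have h1 : ‖Y * Y‖ ≤ ‖Y‖ := by
    refine CStarAlgebra.norm_le_norm_of_nonneg_of_le ?_ h
    have := star_mul_self_nonneg Y
    rwa [(IsSelfAdjoint.of_nonneg hY).star_eq] at this
  have h2 : ‖Y * Y‖ = ‖Y‖ * ‖Y‖ := by
    have := CStarRing.norm_star_mul_self (x := Y)
    rwa [(IsSelfAdjoint.of_nonneg hY).star_eq] at this
  nlinarith [norm_nonneg Y]

theorem star_mul_self_le_one {x : B} (h : ‖x‖ ≤ 1) : star x * x ≤ 1 := by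
  rw [← CStarAlgebra.norm_le_one_iff_of_nonneg _ (star_mul_self_nonneg x),
    CStarRing.norm_star_mul_self]
  nlinarith [norm_nonneg x]

theorem mul_star_self_le_one {x : B} (h : ‖x‖ ≤ 1) : x * star x ≤ 1 := by
  have := star_mul_self_le_one (x := star x) (by rwa [norm_star])
  rwa [star_star] at this

/-- square root of a positive element -/
theorem exists_sqrt {x : B} (h : 0 ≤ x) : ∃ s : B, 0 ≤ s ∧ s * s = x :=
  ⟨CFC.sqrt x, CFC.sqrt_nonneg x, CFC.sqrt_mul_sqrt_self x h⟩

/-- (0): `c* z = T w_z`, `w_z* w_z = z* z`. -/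
theorem lem_zero {c T u z : B} (hc : ‖c‖ ≤ 1) (hT : ‖T‖ ≤ 1) (hu : star u = u)
    (h0 : u * (1 - c * T * star T * star c) * u = 0) (hz : u * z = z) :
    star (star T * star c * z) * (star T * star c * z) = star z * z ∧
      star c * z = T * (star T * star c * z) := by
  have hzu : star z * u = star z := by
    have := congrArg star hz
    rwa [star_mul, hu] at this
  have h1 : star (star T * star c * z) * (star T * star c * z) = star z * z := by
    have h2 : star z * (u * (1 - c * T * star T * star c) * u) * z = 0 := by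
      rw [h0, mul_zero, zero_mul]
    have h3 : star z * (u * (1 - c * T * star T * star c) * u) * z =
        (star z * u) * (u * z) - (star z * u) * c * T * star T * star c * (u * z) := by
      noncomm_ring
    rw [h3, hzu, hz] at h2
    rw [star_mul, star_mul, star_star, star_star]
    rw [sub_eq_zero] at h2
    rw [h2]; noncomm_ring
  refine ⟨h1, ?_⟩
  have hTT : 0 ≤ 1 - T * star T := sub_nonneg.2 (mul_star_self_le_one hT)
  obtain ⟨s, hs0, hs⟩ := exists_sqrt hTT
  have hss : star s = s := (IsSelfAdjoint.of_nonneg hs0).star_eq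
  have h4 : star (s * (star c * z)) * (s * (star c * z)) ≤ 0 := by
    have h5 : star (s * (star c * z)) * (s * (star c * z)) =
        star z * (c * star c) * z - star z * z := by
      rw [← h1]
      simp only [star_mul, star_star, hss]
      calc _ = star z * c * (s * s) * star c * z := by noncomm_ring
        _ = _ := by rw [hs]; noncomm_ring
    rw [h5, sub_nonpos]
    have h6 := star_left_conjugate_le_conjugate (mul_star_self_le_one hc) z
    rwa [mul_one] at h6
  have h7 := eq_zero_of_star_mul_self_le h4
  have h8 : s * (s * (star c * z)) = 0 := by rw [h7, mul_zero]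
  rw [← mul_assoc, hs] at h8
  have h9 : star c * z - T * (star T * star c * z) = 0 := by
    rw [← h8]; noncomm_ring
  exact sub_eq_zero.1 h9

/-- if `h w = w` for `h ≥ 0`, then `h^{1/2} w = w` -/
theorem sqrt_fix {h h1 w : B} (h10 : 0 ≤ h1) (hh : h1 * h1 = h) (hw : h * w = w) : h1 * w = w := by
  have e1 : (1 + h1) * (h1 * w - w) = 0 := by
    calc (1 + h1) * (h1 * w - w) = (h1 * h1) * w - w := by noncomm_ring
      _ = 0 := by rw [hh, hw, sub_self]
  have hsa : star h1 = h1 := (IsSelfAdjoint.of_nonneg h10).star_eq
  set x := h1 * w - w with hx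
  have e2 : star x * x ≤ 0 := by
    have e3 : star x * ((1 + h1) * x) = 0 := by rw [e1, mul_zero]
    have e4 : star x * x + star x * h1 * x = 0 := by rw [← e3]; noncomm_ring
    have e5 : 0 ≤ star x * h1 * x := star_left_conjugate_nonneg h10 x
    have e6 : star x * x = - (star x * h1 * x) := eq_neg_of_add_eq_zero_left e4
    rw [e6]; exact neg_nonpos.2 e5
  exact sub_eq_zero.1 (eq_zero_of_star_mul_self_le e2)

end gen

end Crest.Agent.SPI
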