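import Crest.Agent.SPI.Block

/-! Row 110: auxiliary lemmas for the construction at a fixed level (chunk R110-LEVEL). -/

set_option autoImplicit false
set_option linter.unusedSectionVars false

namespace Crest.Agent.SPI

universe u

variable {M : Type u} [CStarAlgebra M] [PartialOrder M] [StarOrderedRing M]

theorem mul_zero_of_sq {x s : M} (hs : star s = s) (h : x * (s * s) = 0) : x * s = 0 := by
  have h1 : (x * s) * star (x * s) = 0 := by
    rw [star_mul, hs]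
    calc x * s * (s * star x) = x * (s * s) * star x := by noncomm_ring
      _ = 0 := by rw [h, zero_mul]
  exact (CStarRing.mul_star_self_eq_zero_iff (x * s)).1 h1

theorem zero_mul_of_sq {x s : M} (hs : star s = s) (h : (s * s) * x = 0) : s * x = 0 := by
  have h1 : star (s * x) * (s * x) = 0 := by
    rw [star_mul, hs]
    calc star x * s * (s * x) = star x * ((s * s) * x) := by noncomm_ring
      _ = 0 := by rw [h, mul_zero]
  exact (CStarRing.star_mul_self_eq_zero_iff (s * x)).1 h1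

theorem fix_of_sq {x s : M} (hs : star s = s) (h : x * (s * s) = s * s) : x * s = s := by
  have h1 : (x - 1) * (s * s) = 0 := by rw [sub_mul, h, one_mul, sub_self]
  have h2 := mul_zero_of_sq hs h1
  rw [sub_mul, one_mul] at h2
  exact sub_eq_zero.1 h2

theorem sqrt_sa (x : M) : star (CFC.sqrt x) = CFC.sqrt x :=
  (IsSelfAdjoint.of_nonneg (CFC.sqrt_nonneg x)).star_eq

theorem sqrt_norm_le_one (x : M) (h0 : 0 ≤ x) (h1 : x ≤ 1) : ‖CFC.sqrt x‖ ≤ 1 := by
  have h2 := CStarRing.norm_star_mul_self (x := CFC.sqrt x)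
  rw [sqrt_sa, CFC.sqrt_mul_sqrt_self x h0] at h2
  have h3 := norm_le_one_of x h0 h1
  nlinarith [norm_nonneg (CFC.sqrt x)]

theorem norm_le_of_sq {x : M} {C D : ℝ} (hD : 0 ≤ D) (h : ‖star x * x‖ ≤ C) (hC : C ≤ D ^ 2) :
    ‖x‖ ≤ D := by
  rw [CStarRing.norm_star_mul_self] at h
  nlinarith [norm_nonneg x]

/-- columns -/
theorem cols {A : Submodule ℂ M} (hA : PIIdeal A) (a : M) (ha : a ∈ A) (hsa : star a = a) (m : ℕ)
    (τ : ℝ) (hτ : 0 < τ) : ∃ t : Fin m → M, (∀ i, t i ∈ A) ∧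
      ∀ i j, ‖star (a * t i) * (a * t j) - (if i = j then a * a else 0)‖ ≤ τ := by
  have h0 : 0 ≤ a * a := by
    have := star_mul_self_nonneg a
    rwa [hsa] at this
  obtain ⟨t, ht, h⟩ := F0 hA (a * a) (hA.mul_left _ _ ha) h0 m τ hτ
  refine ⟨t, ht, fun i j => ?_⟩
  have := (h i j).le
  rw [star_mul, hsa]
  rwa [show star (t i) * a * (a * t j) = star (t i) * (a * a) * t j by noncomm_ring]

theorem colsum_left (X a : Fin 5 → M) (g : M) (τ C : ℝ) (hτ : 0 ≤ τ)
    (hX : ∀ i j, ‖star (X i) * X j - (if i = j then g else 0)‖ ≤ τ) (ha : ∀ i, ‖a i‖ ≤ C)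
    (i : Fin 5) : ‖star (X i) * (∑ j, X j * a j) - g * a i‖ ≤ 5 * (τ * C) := by
  have h1 : g * a i = ∑ j, (if i = j then g else 0) * a j := by
    simp
  rw [h1, Finset.mul_sum, ← Finset.sum_sub_distrib]
  refine (norm_sum_le _ _).trans ?_
  have h2 : ∀ j ∈ (Finset.univ : Finset (Fin 5)),
      ‖star (X i) * (X j * a j) - (if i = j then g else 0) * a j‖ ≤ τ * C := by
    intro j _
    rw [← mul_assoc, ← sub_mul]
    exact (norm_mul_le _ _).trans (mul_le_mul (hX i j) (ha j) (norm_nonneg _) hτ)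
  refine (Finset.sum_le_sum h2).trans ?_
  simp

theorem colsum (X a : Fin 5 → M) (g : M) (τ C : ℝ) (hτ : 0 ≤ τ) (hC : 0 ≤ C)
    (hX : ∀ i j, ‖star (X i) * X j - (if i = j then g else 0)‖ ≤ τ) (ha : ∀ i, ‖a i‖ ≤ C) :
    ‖star (∑ i, X i * a i) * (∑ j, X j * a j) - ∑ i, star (a i) * g * a i‖ ≤
      25 * (C * (τ * C)) := by
  rw [star_sum, Finset.sum_mul, ← Finset.sum_sub_distrib]
  refine (norm_sum_le _ _).trans ?_
  have h2 : ∀ i ∈ (Finset.univ : Finset (Fin 5)),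
      ‖star (X i * a i) * (∑ j, X j * a j) - star (a i) * g * a i‖ ≤ C * (5 * (τ * C)) := by
    intro i _
    rw [star_mul, mul_assoc, mul_assoc, ← mul_sub]
    refine (norm_mul_le _ _).trans ?_
    rw [norm_star]
    exact mul_le_mul (ha i) (colsum_left X a g τ C hτ hX ha i) (norm_nonneg _) hC
  refine (Finset.sum_le_sum h2).trans ?_
  simp only [Finset.sum_const, Finset.card_univ, Fintype.card_fin, nsmul_eq_mul]
  apply le_of_eq; push_cast; ring

/-- conjugation estimate: `e h e ≈ h1 e² h1`. -/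
theorem conj_comm {e h h1 : M} (he : ‖e‖ ≤ 1) (hh1 : ‖h1‖ ≤ 1) (hh : h1 * h1 = h) {δ : ℝ}
    (hδ : 0 ≤ δ) (hδ1 : δ ≤ 1) (hc : ‖e * h1 - h1 * e‖ ≤ δ) :
    ‖e * h * e - h1 * (e * e) * h1‖ ≤ 3 * δ := by
  have h2 : e * h * e - h1 * (e * e) * h1 = (e * h1 - h1 * e) * (h1 * e) -
      (h1 * e) * (e * h1 - h1 * e) := by
    rw [← hh]; noncomm_ring
  rw [h2]
  have h3 : ‖h1 * e‖ ≤ 1 := (norm_mul_le _ _).trans (by nlinarith [norm_nonneg e, norm_nonneg h1])
  refine (norm_sub_le _ _).trans ?_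
  have h4 : ‖(e * h1 - h1 * e) * (h1 * e)‖ ≤ δ * 1 :=
    (norm_mul_le _ _).trans (mul_le_mul hc h3 (norm_nonneg _) hδ)
  have h5 : ‖(h1 * e) * (e * h1 - h1 * e)‖ ≤ 1 * δ :=
    (norm_mul_le _ _).trans (mul_le_mul h3 hc (norm_nonneg _) zero_le_one)
  linarith

/-- the complementary column `ρ` (step 6). -/
theorem exists_rho (e h h1 g : M) (he0 : 0 ≤ e) (he1 : e ≤ 1) (hh10 : 0 ≤ h1) (hh : h1 * h1 = h)
    (h_le : h ≤ 1) (hg0 : 0 ≤ g) (hg1 : g ≤ 1) (hgh : g * h1 = h1) (ε : ℝ) (hε : 0 < ε)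
    (hε1 : ε ≤ 1) (hc : ‖e * h1 - h1 * e‖ ≤ ε ^ 2 / 10000) :
    ∃ ρ : M, ‖ρ‖ ≤ 1 ∧ ‖star ρ * g * ρ - (h - e * h * e)‖ ≤ ε / 10 := by
  have hesa : star e = e := (IsSelfAdjoint.of_nonneg he0).star_eq
  have hh1sa : star h1 = h1 := (IsSelfAdjoint.of_nonneg hh10).star_eq
  have hgsa : star g = g := (IsSelfAdjoint.of_nonneg hg0).star_eq
  have h0 : 0 ≤ h := by
    rw [← hh]; have := star_mul_self_nonneg h1; rwa [hh1sa] at this
  have hhsa : star h = h := (IsSelfAdjoint.of_nonneg h0).star_eq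
  have hen : ‖e‖ ≤ 1 := norm_le_one_of e he0 he1
  have hhn : ‖h‖ ≤ 1 := norm_le_one_of h h0 h_le
  have hh1n : ‖h1‖ ≤ 1 := by
    refine norm_le_of_sq (C := 1) zero_le_one ?_ (by norm_num)
    rw [hh1sa, hh]; exact hhn
  have hgn : ‖1 - g‖ ≤ 1 := norm_le_one_of _ (sub_nonneg.2 hg1) (by
    rw [sub_le_self_iff]; exact hg0)
  set δ := ε ^ 2 / 10000 with hδdef
  have hδ0 : 0 ≤ δ := by positivity
  have hδ1 : δ ≤ 1 := by rw [hδdef]; nlinarith
  have hcc := conj_comm hen hh1n hh hδ0 hδ1 hc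
  set a : M := h - e * h * e with ha
  have hasa : IsSelfAdjoint a := by
    rw [isSelfAdjoint_iff, ha, star_sub, star_mul, star_mul, hesa, hhsa, mul_assoc]
  -- lower bound for a
  have hee : e * e ≤ 1 := by
    have := star_mul_self_nonneg e
    rw [hesa] at this
    rw [← CStarAlgebra.norm_le_one_iff_of_nonneg _ this]
    exact (norm_mul_le _ _).trans (by nlinarith [norm_nonneg e])
  have hlow : algebraMap ℝ M (-(3 * δ)) ≤ a := by
    have h1' : 0 ≤ h - h1 * (e * e) * h1 := by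
      rw [sub_nonneg]
      have := star_left_conjugate_le_conjugate hee h1
      rwa [hh1sa, mul_one, hh] at this
    have hsa2 : IsSelfAdjoint (e * h * e - h1 * (e * e) * h1) := by
      rw [isSelfAdjoint_iff, star_sub]
      simp only [star_mul, hesa, hhsa, hh1sa, mul_assoc]
    have h2' : e * h * e - h1 * (e * e) * h1 ≤ algebraMap ℝ M (3 * δ) :=
      hsa2.le_algebraMap_norm_self.trans (algebraMap_mono M hcc)
    have h3' : a = (h - h1 * (e * e) * h1) - (e * h * e - h1 * (e * e) * h1) := by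
      rw [ha]; abel
    rw [h3', map_neg]
    calc -(algebraMap ℝ M (3 * δ)) = 0 - algebraMap ℝ M (3 * δ) := by rw [zero_sub]
      _ ≤ _ := sub_le_sub h1' h2'
  have hup : a ≤ algebraMap ℝ M 1 := by
    rw [map_one, ha]
    have : 0 ≤ e * h * e := by
      have := star_left_conjugate_nonneg h0 e
      rwa [hesa] at this
    exact (sub_le_self _ this).trans h_le
  have hspec1 : ∀ t ∈ spectrum ℝ a, -(3 * δ) ≤ t := (algebraMap_le_iff_le_spectrum hasa).1 hlow
  have hspec2 : ∀ t ∈ spectrum ℝ a, t ≤ 1 := (le_algebraMap_iff_spectrum_le hasa).1 hup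
  set Z : M := cfc (fun t : ℝ => max t 0) a with hZ
  have hZ0 : 0 ≤ Z := cfc_nonneg fun t _ => le_max_right _ _
  have hZsa : star Z = Z := (IsSelfAdjoint.of_nonneg hZ0).star_eq
  have hZ1 : ‖Z‖ ≤ 1 := by
    refine norm_cfc_le zero_le_one fun t ht => ?_
    rw [Real.norm_eq_abs, abs_of_nonneg (le_max_right _ _)]
    exact max_le (hspec2 t ht) zero_le_one
  have hZa : ‖Z - a‖ ≤ 3 * δ := by
    have : Z - a = cfc (fun t : ℝ => max t 0 - t) a := by
      rw [cfc_sub (fun t : ℝ => max t 0) (fun t => t) a, cfc_id' ℝ a hasa]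
    rw [this]
    refine norm_cfc_le (by positivity) fun t ht => ?_
    have := hspec1 t ht
    rw [Real.norm_eq_abs, abs_le]
    rcases max_cases t 0 with ⟨h1', h2'⟩ | ⟨h1', h2'⟩ <;> rw [h1'] <;> constructor <;> linarith
  refine ⟨CFC.sqrt Z, ?_, ?_⟩
  · refine norm_le_of_sq (C := 1) zero_le_one ?_ (by norm_num)
    rw [sqrt_sa, CFC.sqrt_mul_sqrt_self Z hZ0]; exact hZ1
  set ρ := CFC.sqrt Z with hρ
  have hρsa : star ρ = ρ := sqrt_sa Z
  have hρρ : ρ * ρ = Z := CFC.sqrt_mul_sqrt_self Z hZ0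
  have hρn : ‖ρ‖ ≤ 1 := by
    refine norm_le_of_sq (C := 1) zero_le_one ?_ (by norm_num)
    rw [hρsa, hρρ]; exact hZ1
  have hgZ : ‖(1 - g) * Z‖ ≤ 6 * δ := by
    have h1' : (1 - g) * Z = (1 - g) * ((Z - a) + (h1 * (e * e) * h1 - e * h * e)) := by
      have h2' : (1 - g) * (h - h1 * (e * e) * h1) = 0 := by
        have h3' : (1 - g) * h1 = 0 := by rw [sub_mul, one_mul, hgh, sub_self]
        calc (1 - g) * (h - h1 * (e * e) * h1) =
            ((1 - g) * h1) * (h1 - (e * e) * h1) := by rw [← hh]; noncomm_ring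
          _ = 0 := by rw [h3', zero_mul]
      calc (1 - g) * Z = (1 - g) * ((Z - a) + (h1 * (e * e) * h1 - e * h * e)) +
          (1 - g) * (h - h1 * (e * e) * h1) := by rw [ha]; noncomm_ring
        _ = _ := by rw [h2', add_zero]
    rw [h1']
    refine (norm_mul_le _ _).trans ?_
    have h4' : ‖(Z - a) + (h1 * (e * e) * h1 - e * h * e)‖ ≤ 3 * δ + 3 * δ := by
      refine (norm_add_le _ _).trans (add_le_add hZa ?_)
      rw [norm_sub_rev]; exact hcc
    nlinarith [norm_nonneg ((Z - a) + (h1 * (e * e) * h1 - e * h * e)), norm_nonneg (1 - g)]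
  have hgρ : ‖(1 - g) * ρ‖ ≤ 3 * ε / 100 := by
    have h1' : ‖star ((1 - g) * ρ)‖ ≤ 3 * ε / 100 := by
      refine norm_le_of_sq (C := 6 * δ) (by positivity) ?_ (by rw [hδdef]; nlinarith)
      rw [star_star, star_mul, hρsa]
      calc ‖(1 - g) * ρ * (ρ * star (1 - g))‖ = ‖((1 - g) * Z) * star (1 - g)‖ := by
            rw [← hρρ]; congr 1; noncomm_ring
        _ ≤ ‖(1 - g) * Z‖ * ‖star (1 - g)‖ := norm_mul_le _ _
        _ ≤ (6 * δ) * 1 := mul_le_mul hgZ (by rw [norm_star]; exact hgn) (norm_nonneg _)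
            (by positivity)
        _ = _ := mul_one _
    rwa [norm_star] at h1'
  have h5 : star ρ * g * ρ - a = (Z - a) - ρ * ((1 - g) * ρ) := by
    rw [hρsa, ← hρρ]; noncomm_ring
  rw [h5]
  refine (norm_sub_le _ _).trans ?_
  have h6 : ‖ρ * ((1 - g) * ρ)‖ ≤ 1 * (3 * ε / 100) :=
    (norm_mul_le _ _).trans (mul_le_mul hρn hgρ (norm_nonneg _) zero_le_one)
  have h7 : 3 * δ ≤ 3 * ε / 100 := by rw [hδdef]; nlinarith
  linarith

end Crest.Agent.SPI
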