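import Crest.Agent.SPI.LevelAux

/-! Row 110: the functions of `p` and `q` (chunk R110-LEVEL). -/

set_option autoImplicit false

namespace Crest.Agent.SPI

universe u

variable {M : Type u} [CStarAlgebra M] [PartialOrder M] [StarOrderedRing M]

theorem cfc_ramp_sa (a b : ℝ) (p : M) : star (cfc (ramp a b) p) = cfc (ramp a b) p :=
  (IsSelfAdjoint.of_nonneg (cfc_ramp_nonneg a b p)).star_eq

theorem cfc_ramp_norm (a b : ℝ) (p : M) : ‖cfc (ramp a b) p‖ ≤ 1 :=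
  norm_le_one_of _ (cfc_ramp_nonneg a b p) (cfc_ramp_le_one a b p)

/-- reversed product -/
theorem cfc_ramp_mul' (a b c d : ℝ) (hab : a < b) (hbc : b ≤ c) (hcd : c < d) (p : M)
    (hp : IsSelfAdjoint p) : cfc (ramp c d) p * cfc (ramp a b) p = cfc (ramp c d) p := by
  have := congrArg star (cfc_ramp_mul a b c d hab hbc hcd p hp)
  rwa [star_mul, cfc_ramp_sa, cfc_ramp_sa] at this

theorem cfc_ramp_mem {J : Submodule ℂ M} (hJ : CIdeal J) (a b : ℝ) (ha : 0 ≤ a) (hab : a < b)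
    (p : M) (hp : p ∈ J) (hsa : IsSelfAdjoint p) : cfc (ramp a b) p ∈ J :=
  hJ.cfc_mem p hp hsa _ (ramp_continuous a b).continuousOn (ramp_zero a b ha hab)

/-- the functions of `p` with all their relations. -/
theorem exists_pfuns {A : Submodule ℂ M} (hA : CIdeal A) (p : M) (hp : p ∈ A) (hp0 : 0 ≤ p) :
    ∃ f00 f0 chi b w ws w1 : M,
      (star f00 = f00 ∧ ‖f00‖ ≤ 1) ∧ (star f0 = f0 ∧ 0 ≤ f0 ∧ ‖f0‖ ≤ 1) ∧
      (star chi = chi ∧ ‖chi‖ ≤ 1) ∧ (star b = b ∧ ‖b‖ ≤ 1) ∧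
      w = chi - chi * chi ∧ w ∈ A ∧ 0 ≤ w ∧ star ws = ws ∧ ws * ws = w ∧ ‖ws‖ ≤ 1 ∧
      cfc ut p * f0 = f0 ∧ cfc ut p * chi = chi ∧ cfc ut p * w1 = w1 ∧ f00 * cfc ut p = f00 ∧
      cfc ut p * b = b * cfc ut p ∧ b * b = 1 - f0 ∧ b * w1 = 0 ∧ cfc fit p * w1 = 0 ∧
      cfc fit p * b = 0 ∧ cfc fit p * f0 = cfc fit p ∧ chi * cfc fit p = cfc fit p ∧
      chi * f0 = f0 * chi ∧ w1 * ws = ws ∧ f00 * f0 = f0 ∧ f0 * f00 = f0 := by
  have hsa : IsSelfAdjoint p := IsSelfAdjoint.of_nonneg hp0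
  set f00 : M := cfc (ramp (8/32) (9/32)) p with hf00
  set f0 : M := cfc (ramp (9/32) (10/32)) p with hf0
  set g3 : M := cfc (ramp (10/32) (11/32)) p with hg3
  set chi : M := cfc (ramp (11/32) (12/32)) p with hchi
  set g5 : M := cfc (ramp (12/32) (14/32)) p with hg5
  set b : M := cfc (fun t => Real.sqrt (1 - ramp (9/32) (10/32) t)) p with hb
  have hut : cfc ut p = cfc (ramp 0 (1/4)) p := rfl
  have hfit : cfc fit p = cfc (ramp (7/16) (1/2)) p := rfl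
  have sa_f0 : star f0 = f0 := cfc_ramp_sa _ _ p
  have sa_chi : star chi = chi := cfc_ramp_sa _ _ p
  have sa_g3 : star g3 = g3 := cfc_ramp_sa _ _ p
  have hbsa : star b = b := by
    have : IsSelfAdjoint b := cfc_predicate _ p
    exact this.star_eq
  have hcont : Continuous (fun t => Real.sqrt (1 - ramp (9/32) (10/32) t)) :=
    Real.continuous_sqrt.comp (continuous_const.sub (ramp_continuous _ _))
  have hbb : b * b = 1 - f0 := by
    rw [hb, ← cfc_mul _ _ p hcont.continuousOn hcont.continuousOn, hf0]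
    have e1 : (1 : M) = cfc (fun _ : ℝ => (1 : ℝ)) p := (cfc_const_one ℝ p).symm
    rw [e1, ← cfc_sub (fun _ : ℝ => (1 : ℝ)) (ramp (9/32) (10/32)) p continuousOn_const
      (ramp_continuous _ _).continuousOn]
    refine cfc_congr fun t _ => ?_
    exact Real.mul_self_sqrt (sub_nonneg.2 (ramp_le_one _ _ t))
  have hbn : ‖b‖ ≤ 1 := by
    refine norm_le_of_sq (C := 1) zero_le_one ?_ (by norm_num)
    rw [hbsa, hbb]
    exact norm_le_one_of _ (sub_nonneg.2 (cfc_ramp_le_one _ _ p))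
      (sub_le_self _ (cfc_ramp_nonneg _ _ p))
  -- products
  have f0_g3 : f0 * g3 = g3 := cfc_ramp_mul _ _ _ _ (by norm_num) (by norm_num) (by norm_num) p hsa
  have g3_chi : g3 * chi = chi :=
    cfc_ramp_mul _ _ _ _ (by norm_num) (by norm_num) (by norm_num) p hsa
  have g5_chi : g5 * chi = g5 :=
    cfc_ramp_mul' _ _ _ _ (by norm_num) (by norm_num) (by norm_num) p hsa
  have u_g3 : cfc ut p * g3 = g3 := by
    rw [hut]; exact cfc_ramp_mul _ _ _ _ (by norm_num) (by norm_num) (by norm_num) p hsa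
  have fi_g3 : cfc fit p * g3 = cfc fit p := by
    rw [hfit]; exact cfc_ramp_mul' _ _ _ _ (by norm_num) (by norm_num) (by norm_num) p hsa
  have fi_g5 : cfc fit p * g5 = cfc fit p := by
    rw [hfit]; exact cfc_ramp_mul' _ _ _ _ (by norm_num) (by norm_num) (by norm_num) p hsa
  have fi_f0 : cfc fit p * f0 = cfc fit p := by
    rw [hfit]; exact cfc_ramp_mul' _ _ _ _ (by norm_num) (by norm_num) (by norm_num) p hsa
  have chi_f0 : chi * f0 = chi :=
    cfc_ramp_mul' _ _ _ _ (by norm_num) (by norm_num) (by norm_num) p hsa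
  have f0_chi : f0 * chi = chi :=
    cfc_ramp_mul _ _ _ _ (by norm_num) (by norm_num) (by norm_num) p hsa
  have b_g3 : b * g3 = 0 := by
    refine zero_mul_of_sq hbsa ?_
    rw [hbb, sub_mul, one_mul, f0_g3, sub_self]
  have hw0 : 0 ≤ chi - chi * chi := by
    have h1 : chi * (1 - chi) = chi - chi * chi := by rw [mul_sub, mul_one]
    have h2 : chi - chi * chi = cfc (fun t => ramp (11/32) (12/32) t -
        ramp (11/32) (12/32) t * ramp (11/32) (12/32) t) p := by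
      rw [cfc_sub (ramp (11/32) (12/32)) (fun t => ramp (11/32) (12/32) t *
        ramp (11/32) (12/32) t) p (ramp_continuous _ _).continuousOn
        ((ramp_continuous _ _).mul (ramp_continuous _ _)).continuousOn,
        cfc_mul _ _ p (ramp_continuous _ _).continuousOn (ramp_continuous _ _).continuousOn]
    rw [h2]
    refine cfc_nonneg fun t _ => ?_
    have h3 := ramp_nonneg (11/32) (12/32) t
    have h4 := ramp_le_one (11/32) (12/32) t
    nlinarith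
  have hw1 : chi - chi * chi ≤ 1 := by
    have : 0 ≤ chi * chi := by
      have := star_mul_self_nonneg chi
      rwa [sa_chi] at this
    exact (sub_le_self _ this).trans (cfc_ramp_le_one _ _ p)
  have hwA : chi - chi * chi ∈ A := by
    have h1 : chi ∈ A := cfc_ramp_mem hA _ _ (by norm_num) (by norm_num) p hp hsa
    exact A.sub_mem h1 (hA.mul_left _ _ h1)
  refine ⟨f00, f0, chi, b, chi - chi * chi, CFC.sqrt (chi - chi * chi), g3 * (1 - g5),
    ⟨cfc_ramp_sa _ _ p, cfc_ramp_norm _ _ p⟩, ⟨sa_f0, cfc_ramp_nonneg _ _ p, cfc_ramp_norm _ _ p⟩,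
    ⟨sa_chi, cfc_ramp_norm _ _ p⟩, ⟨hbsa, hbn⟩, rfl, hwA, hw0, sqrt_sa _,
    CFC.sqrt_mul_sqrt_self _ hw0, sqrt_norm_le_one _ hw0 hw1, ?_, ?_, ?_, ?_, ?_, hbb, ?_, ?_, ?_,
    fi_f0, ?_, ?_, ?_, ?_, ?_⟩
  · rw [hut]; exact cfc_ramp_mul _ _ _ _ (by norm_num) (by norm_num) (by norm_num) p hsa
  · rw [hut]; exact cfc_ramp_mul _ _ _ _ (by norm_num) (by norm_num) (by norm_num) p hsa
  · rw [← mul_assoc, u_g3]
  · rw [hut]; exact cfc_ramp_mul' _ _ _ _ (by norm_num) (by norm_num) (by norm_num) p hsa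
  · exact (cfc_commute_cfc _ _ p).eq
  · rw [← mul_assoc, b_g3, zero_mul]
  · rw [← mul_assoc, fi_g3, mul_sub, mul_one, fi_g5, sub_self]
  · refine mul_zero_of_sq hbsa ?_
    rw [hbb, mul_sub, mul_one, fi_f0, sub_self]
  · rw [hfit]; exact cfc_ramp_mul _ _ _ _ (by norm_num) (by norm_num) (by norm_num) p hsa
  · rw [chi_f0, f0_chi]
  · refine fix_of_sq (sqrt_sa _) ?_
    rw [CFC.sqrt_mul_sqrt_self _ hw0]
    have h1 : (1 - g5) * (chi - chi * chi) = chi - chi * chi := by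
      calc (1 - g5) * (chi - chi * chi) = chi - chi * chi - g5 * chi + (g5 * chi) * chi := by
            noncomm_ring
        _ = _ := by rw [g5_chi, g5_chi]; abel
    rw [mul_assoc, h1, mul_sub, ← mul_assoc, g3_chi]
  · exact cfc_ramp_mul _ _ _ _ (by norm_num) (by norm_num) (by norm_num) p hsa
  · exact cfc_ramp_mul' _ _ _ _ (by norm_num) (by norm_num) (by norm_num) p hsa

/-- the functions of `q`. -/
theorem exists_qfuns {A : Submodule ℂ M} (hA : CIdeal A) (q : M) (hq : q ∈ A) (hq0 : 0 ≤ q) :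
    ∃ y d dh h1 : M,
      (star y = y ∧ 0 ≤ y ∧ y ≤ 1 ∧ y ∈ A) ∧ (star d = d ∧ 0 ≤ d ∧ ‖d‖ ≤ 1) ∧
      (star dh = dh ∧ dh * dh = d ∧ dh ∈ A ∧ ‖dh‖ ≤ 1) ∧
      (0 ≤ h1 ∧ star h1 = h1 ∧ h1 * h1 = cfc Ft q ∧ ‖h1‖ ≤ 1) ∧
      y * cfc Ft q = cfc Ft q ∧ d * cfc Ft q = cfc Ft q ∧ y * dh = dh ∧
      (cfc ut q * cfc ut q) * y = y ∧ (cfc ut q * cfc ut q) * h1 = h1 := by
  have hsa : IsSelfAdjoint q := IsSelfAdjoint.of_nonneg hq0
  set y : M := cfc (ramp (1/4) (3/8)) q with hy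
  set d : M := cfc (ramp (3/8) (1/2)) q with hd
  have hut : cfc ut q = cfc (ramp 0 (1/4)) q := rfl
  have hFt : cfc Ft q = cfc (ramp (1/2) (3/4)) q := rfl
  have d0 : 0 ≤ d := cfc_ramp_nonneg _ _ q
  have h0 : 0 ≤ cfc Ft q := by rw [hFt]; exact cfc_ramp_nonneg _ _ q
  have hle : cfc Ft q ≤ 1 := by rw [hFt]; exact cfc_ramp_le_one _ _ q
  have y_d : y * d = d := cfc_ramp_mul _ _ _ _ (by norm_num) (by norm_num) (by norm_num) q hsa
  have u_y : cfc ut q * y = y := by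
    rw [hut]; exact cfc_ramp_mul _ _ _ _ (by norm_num) (by norm_num) (by norm_num) q hsa
  have u_h : cfc ut q * cfc Ft q = cfc Ft q := by
    rw [hut, hFt]; exact cfc_ramp_mul _ _ _ _ (by norm_num) (by norm_num) (by norm_num) q hsa
  have dA : d ∈ A := cfc_ramp_mem hA _ _ (by norm_num) (by norm_num) q hq hsa
  have dhA : CFC.sqrt d ∈ A := by
    refine hA.of_sq _ (CFC.sqrt_nonneg d) ?_
    rw [CFC.sqrt_mul_sqrt_self d d0]; exact dA
  refine ⟨y, d, CFC.sqrt d, CFC.sqrt (cfc Ft q),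
    ⟨cfc_ramp_sa _ _ q, cfc_ramp_nonneg _ _ q, cfc_ramp_le_one _ _ q,
      cfc_ramp_mem hA _ _ (by norm_num) (by norm_num) q hq hsa⟩,
    ⟨cfc_ramp_sa _ _ q, d0, cfc_ramp_norm _ _ q⟩,
    ⟨sqrt_sa _, CFC.sqrt_mul_sqrt_self d d0, dhA, sqrt_norm_le_one _ d0 (cfc_ramp_le_one _ _ q)⟩,
    ⟨CFC.sqrt_nonneg _, sqrt_sa _, CFC.sqrt_mul_sqrt_self _ h0, sqrt_norm_le_one _ h0 hle⟩,
    ?_, ?_, ?_, ?_, ?_⟩
  · rw [hFt]; exact cfc_ramp_mul _ _ _ _ (by norm_num) (by norm_num) (by norm_num) q hsa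
  · rw [hFt]; exact cfc_ramp_mul _ _ _ _ (by norm_num) (by norm_num) (by norm_num) q hsa
  · refine fix_of_sq (sqrt_sa _) ?_
    rw [CFC.sqrt_mul_sqrt_self d d0]; exact y_d
  · rw [mul_assoc, u_y, u_y]
  · refine fix_of_sq (sqrt_sa _) ?_
    rw [CFC.sqrt_mul_sqrt_self _ h0, mul_assoc, u_h, u_h]

end Crest.Agent.SPI
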